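import Vale.Agent.P295.Defs
import Vale.Agent.P295.Bdl.B2

open MvPolynomial Vale.Agent.P295

namespace Vale.Agent.Results.P295.Counterexample

theorem result : ∃ n : ℕ, 4 ≤ n ∧ n ≤ 7 ∧ ∃ f : MvPolynomial (Fin n) ℂ,
    IsStableCoordinateOfOrder 1 f ∧ IsStableCoordinate f ∧ ¬ IsCoordinate f := by
  obtain ⟨n, h4, h7, f, hf, hf'⟩ := Vale.Agent.P295.Full.main
  exact ⟨n, h4, h7, f, hf, ⟨1, le_refl 1, hf⟩, hf'⟩

end Vale.Agent.Results.P295.Counterexample
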