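import Vale.Agent.P295.Defs
import Vale.Agent.P295.EveryN

open MvPolynomial Vale.Agent.P295

namespace Vale.Agent.Results.P295.EveryN

theorem result (n : ℕ) (hn : 5 ≤ n) : ∃ f : MvPolynomial (Fin n) ℂ,
    IsStableCoordinateOfOrder 1 f ∧ IsStableCoordinate f ∧ ¬ IsCoordinate f := by
  obtain ⟨f, hf, hf'⟩ := Vale.Agent.P295.Full.every_n n hn
  exact ⟨f, hf, ⟨1, le_refl 1, hf⟩, hf'⟩

end Vale.Agent.Results.P295.EveryN
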